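import Vale.Agent.P338.R3.H898.Act
import Vale.Agent.P338.R3.H334.Glue
import Vale.Agent.P338.R3.H50.IO
import Vale.Agent.P338.R3.H282.Step

/-!
P338-D, module CHAIN: composition of the passes, from the loaded array to the released bits.

* `MArr`: arrays of the machine, position `u`, operand bit, real/imaginary part; `cells n F` = the
  list of the `4 n` cells; `atL D n F` = the data `D` with this array in front of the head.
* `D0` = the data at the start, `blocks` = the blocks of an operand.
* `ex_steps`: induction over a list of steps.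
* `chain`: LOAD, forward steps, PRODUCT, backward steps, UNLOAD; the numerical statement `Num` is the
  only arithmetical input.
-/

namespace Vale.Agent.P338.R3.H257

open Vale.Agent.P338.R2.H898 (Zip)
open Vale.Agent.P338.R3.H968 Vale.Agent.P338.R3.H898
open Vale.Agent.P338.R3.H282 (Geo St DC Ly)
open Vale.Agent.P338.R3.H50 (emits ovl prodW unload_eq)
open Vale.Agent.P338.R3.H772 (lval)

/-- Arrays of the machine: position, operand bit, real (`false`) or imaginary (`true`) part. -/
abbrev MArr : Type := ℕ → Bool → Bool → Cell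

/-- The four cells of a position. -/
def quad (F : MArr) (u : ℕ) : List Cell :=
  [F u false false, F u false true, F u true false, F u true true]

/-- The list of the cells of the positions below `n`. -/
def cells (n : ℕ) (F : MArr) : List Cell := (List.range n).flatMap (quad F)

/-- The array in front of the head. -/
def atL (D : DS) (n : ℕ) (F : MArr) : DS := { D with X := ⟨[], cells n F⟩ }

/-- The array behind the head. -/
def atR (D : DS) (n : ℕ) (F : MArr) : DS := { D with X := ⟨(cells n F).reverse, []⟩ }

theorem quad_congr {F G : MArr} {u : ℕ} (h : ∀ o r, F u o r = G u o r) : quad F u = quad G u := by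
  simp [quad, h]

theorem cells_congr {n : ℕ} {F G : MArr} (h : ∀ u < n, ∀ o r, F u o r = G u o r) :
    cells n F = cells n G := by
  unfold cells
  apply List.flatMap_congr
  intro u hu
  exact quad_congr (h u (List.mem_range.1 hu))

theorem atL_congr {n : ℕ} {F G : MArr} (h : ∀ u < n, ∀ o r, F u o r = G u o r) (D : DS) :
    atL D n F = atL D n G := by
  unfold atL
  rw [cells_congr h]

theorem length_cells (n : ℕ) (F : MArr) : (cells n F).length = 4 * n := by
  unfold cells quad
  simp [mul_comm]

@[simp] theorem atL_A (D : DS) (n : ℕ) (F : MArr) : (atL D n F).A = D.A := rfl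
@[simp] theorem atL_B (D : DS) (n : ℕ) (F : MArr) : (atL D n F).B = D.B := rfl
@[simp] theorem atL_out (D : DS) (n : ℕ) (F : MArr) : (atL D n F).out = D.out := rfl
@[simp] theorem atL_acc (D : DS) (n : ℕ) (F : MArr) : (atL D n F).acc = D.acc := rfl
@[simp] theorem atL_atL (D : DS) (n : ℕ) (F F' : MArr) : atL (atL D n F) n F' = atL D n F' := rfl

/-- The run of a list of steps. -/
def runS {σ : Type} (sem : σ → MArr → MArr) (l : List σ) (F : MArr) : MArr :=
  l.foldl (fun F st => sem st F) F

/-- **Induction over the steps.** -/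
theorem ex_steps {P : CPar} {σ : Type} {sa : σ → List Act} {sem : σ → MArr → MArr} {n : ℕ}
    {Q : DS → Prop} {l : List σ}
    (h : ∀ st ∈ l, ∀ D F, Q D → Ex P (sa st) (atL D n F) (atL D n (sem st F))) {D : DS}
    (hD : Q D) (F : MArr) :
    Ex P (l.flatMap sa) (atL D n F) (atL D n (runS sem l F)) := by
  induction l generalizing F with
  | nil => exact .nil _
  | cons st l ih =>
    rw [List.flatMap_cons]
    exact (h st (by simp) D F hD).append (ih (fun st' hst' => h st' (by simp [hst'])) _)

/-- The blocks of an operand (least significant bit first): `m` blocks of `k` bits, the least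
significant block first, every block with its most significant bit first. -/
def blocks (k m : ℕ) (x : List Bool) : List (List Bool) :=
  (List.range m).map fun v => ((x.drop (k * v)).take k).reverse

/-- The data at the start. -/
def D0 (bx bY : List (List Bool)) : DS where
  X := ⟨[], []⟩
  Y := ⟨[], []⟩
  A := []
  B := []
  ix := bx
  iy := bY
  jx := []
  jy := []
  out := []
  acc := 0
  cst := 0
  sh := 0

/-- The data after LOAD (without the array). -/
def D1 (bx bY : List (List Bool)) : DS :=
  { D0 [] [] with
    jx := bx.reverse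
    jy := bY.reverse }

/-- The loaded array: blocks of the two operands in the first `m` valid positions. -/
def ldArr (P : CPar) (G : Geo) (m : ℕ) (x y : ℕ) : MArr := fun u o r =>
  if r then cZero else
    if G.valid u && decide (G.idx u < m) then
      cLoad P ((if o then y else x) / 2 ^ (P.w * P.Y * G.idx u) % 2 ^ (P.w * P.Y))
    else cZero

/-- The number of positions. -/
def nP (G : Geo) : ℕ := 2 ^ (G.a * G.d + G.s)

/-- The number of blocks of the product. -/
def nM (G : Geo) : ℕ := 2 ^ G.s * G.N

/-- **The numerical statement**: after all steps the words of the real cells of the first slot are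
close to the coefficients of the product. -/
def Num {δ : Type} (P : CPar) (G : Geo) (m : ℕ) (sem : St δ → MArr → MArr) (prS : MArr → MArr)
    (fw bw : List (St δ)) : Prop :=
  ∀ x y : ℕ, x < 2 ^ (P.w * P.Y * m) → y < 2 ^ (P.w * P.Y * m) →
    ∀ u < nP G, G.valid u = true → ∀ j < 2 * P.Y,
      |sg P.b (runS sem bw (prS (runS sem fw (ldArr P G m x y))) u false false j) -
        2 ^ P.s * (prodW P.w P.Y x y (G.idx u) j : ℤ)| ≤ 2 ^ (P.s - 3)

/-- The passes of the machine on arrays. -/
structure Passes {δ : Type} (P : CPar) (G : Geo) (m : ℕ) (sem : St δ → MArr → MArr)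
    (prS : MArr → MArr) (sa : St δ → List Act) (ldA prA ulA : List Act) (fw bw : List (St δ)) :
    Prop where
  /-- LOAD -/
  load : ∀ x y : List Bool, x.length = P.w * P.Y * m → y.length = P.w * P.Y * m →
    Ex P ldA (D0 (blocks (P.w * P.Y) m x) (blocks (P.w * P.Y) m y))
      (atL (D1 (blocks (P.w * P.Y) m x) (blocks (P.w * P.Y) m y)) (nP G)
        (ldArr P G m (lval x) (lval y)))
  /-- one step (zeta, transposed zeta, diagonal) -/
  step : ∀ st ∈ fw ++ bw, ∀ D F, D.A = [] ∧ D.B = [] →
    Ex P (sa st) (atL D (nP G) F) (atL D (nP G) (sem st F))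
  /-- PRODUCT -/
  prod : ∀ D F, D.A = [] ∧ D.B = [] →
    Ex P prA (atL D (nP G) F) (atL D (nP G) (prS F))
  /-- UNLOAD: the cells of the valid positions in increasing order -/
  unload : ∀ D F, D.A = [] ∧ D.B = [] → D.acc = 0 → D.out = [] → ∃ (D' : DS) (C : ℕ → Cell),
    Ex P ulA (atL D (nP G) F) D' ∧
    (∀ v < nM G, ∃ u < nP G, G.valid u = true ∧ G.idx u = v ∧ C v = F u false false) ∧
    D'.out = (emits P ((List.range (nM G)).map (ovl P C)) 0).1

/-- **The chain.** -/
theorem chain {δ : Type} {P : CPar} {G : Geo} {m : ℕ} {sem : St δ → MArr → MArr}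
    {prS : MArr → MArr} {sa : St δ → List Act} {ldA prA ulA : List Act} {fw bw : List (St δ)}
    (hP : P.Ok) (hp : Passes P G m sem prS sa ldA prA ulA fw bw) (hN : Num P G m sem prS fw bw)
    (hm : 2 * m = nM G) (h3 : 4 ≤ P.s)
    (hbig : (2 * (nM G * P.Y * 2 ^ (2 * P.w)) + 1) * 2 ^ (P.s + 2) ≤ 2 ^ P.b)
    (x y : List Bool) (hx : x.length = P.w * P.Y * m) (hy : y.length = P.w * P.Y * m) :
    ∃ D2, Ex P (ldA ++ (fw.flatMap sa ++ (prA ++ (bw.flatMap sa ++ ulA))))
        (D0 (blocks (P.w * P.Y) m x) (blocks (P.w * P.Y) m y)) D2 ∧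
      D2.out.length = 2 * (P.w * P.Y * m) ∧ lval D2.out = lval x * lval y := by
  set bx := blocks (P.w * P.Y) m x
  set bY := blocks (P.w * P.Y) m y
  have hQ : (D1 bx bY).A = [] ∧ (D1 bx bY).B = [] := ⟨rfl, rfl⟩
  have e1 := hp.load x y hx hy
  have e2 := ex_steps (fun st hst => hp.step st (List.mem_append_left _ hst)) hQ
    (ldArr P G m (lval x) (lval y))
  have e3 := hp.prod (D1 bx bY) (runS sem fw (ldArr P G m (lval x) (lval y))) hQ
  have e4 := ex_steps (fun st hst => hp.step st (List.mem_append_right _ hst)) hQ
    (prS (runS sem fw (ldArr P G m (lval x) (lval y))))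
  obtain ⟨D2, C, e5, hC, hout⟩ := hp.unload (D1 bx bY)
    (runS sem bw (prS (runS sem fw (ldArr P G m (lval x) (lval y))))) hQ rfl rfl
  have hlx : lval x < 2 ^ (P.w * P.Y * m) := by
    rw [← hx]; exact Vale.Agent.P338.R3.H50.lval_lt x
  have hly : lval y < 2 ^ (P.w * P.Y * m) := by
    rw [← hy]; exact Vale.Agent.P338.R3.H50.lval_lt y
  have key := unload_eq P hP (nM G) m m (lval x) (lval y) (by omega) hlx hly hbig C
    (2 ^ (P.s - 3)) (by
      have h5 : P.s - 1 = (P.s - 3) + 2 := by omega
      rw [h5, pow_add]
      have : (0 : ℤ) < 2 ^ (P.s - 3) := by positivity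
      omega) (fun v hv j hj => by
      obtain ⟨u, hu, hval, hidx, hCv⟩ := hC v hv
      have := hN (lval x) (lval y) hlx hly u hu hval j hj
      rw [hCv, ← hidx]
      exact this)
  refine ⟨D2, e1.append (e2.append (e3.append (e4.append e5))), ?_, ?_⟩
  · rw [hout, key.1, ← hm]; ring
  · rw [hout, key.2]

end Vale.Agent.P338.R3.H257
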